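import Vale.Agent.P287D.C3.St
import Vale.Agent.P287D.Dp.Rk
import Vale.Agent.P287D.Sc.Xl
import Vale.Agent.P287D.Sc.Sur
import Vale.Agent.P287D.Sg.Cbn

/-!
# P287D: vertical prime divisors of a conic bundle
-/

set_option linter.unusedVariables false

noncomputable section

namespace Vale.Agent.P287D.C3

variable {K : Type} [Field K] [Algebra ℂ K] {n m : ℕ} {L : IntermediateField ℂ K} {P Q : Pl K}

theorem ok_inc (hK : FF K n) (hL : FF L m) : Ok (inc L) :=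
  Cst.ok (φ := inc L) (.of_lin fun _ => rfl) hL hK

theorem δ_ne (h : Q ≠ P) : P.δ Q = 0 := if_neg h

theorem δ_self (P : Pl K) : P.δ P = 1 := if_pos rfl

theorem δ_nn (P Q : Pl K) : 0 ≤ P.δ Q := by
  unfold Pl.δ
  split_ifs <;> norm_num

/-- **VQ** -/
theorem vq : VQ := by
  intro K _ _ hK hF Λ B Γ ε L B₀ P m hL cl s b a nh o u
  have sΛ := m.term.smp
  have bΛ := m.term.big
  have d : Dsc Λ (pb (inc L) B₀) := m.des.trans a.dsc
  have e0 : ∀ W, Hor L W → ε W = 0 := fun W w => by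
    rw [u.2 W (Sg.on_hor hK hL s b sΛ d w), δ_ne fun e : W = P => nh (e ▸ w)]
  obtain ⟨K', _, _, φ, g⟩ := gen_ex 4 K hK L cl
  have g' : GFd 3 1 L φ := ⟨g, hK, hL⟩
  obtain ⟨x, hx⟩ := Dp.pic_split (Module.finite_of_finrank_eq_succ m.rk) m.smp m.des m.rk
    m.term.hull.1 (Dp.mfs_not m) u.1
  have le : fld B ≤ L := a.fld_eq ▸ fld_pb_le hK cl _
  have p1 := Dp.pb_prn g'.ff g.toExt m.smp le hx
  rw [pb_sub, g'.pb_eq_zero.2 e0, pb_smul, zero_sub] at p1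
  have x0 : x = 0 := by
    by_contra k
    obtain ⟨c, am⟩ := m.neg
    refine Sc.not_big_prn g'.ff ?_ (Gx.big_pb g'.ok g.gen (am.big_iff.1 bΛ))
    rw [pb_sub, pb_smul]
    refine sub_mem (Submodule.smul_mem _ _ (Dp.pb_prn g'.ff g.toExt m.smp le (.refl m.smp))) ?_
    have := (Prn K').smul_mem x⁻¹ (neg_mem p1)
    rwa [neg_neg, inv_smul_smul₀ k] at this
  rw [x0, zero_smul, sub_zero, a.dsc_iff, dsc_pb_iff hK cl] at hx
  obtain ⟨b₀, d₀, p⟩ := hx
  obtain ⟨γ, hγ, e⟩ := prn_down hK cl p fun W w => by simp [e0 W w, w.trv.pb]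
  have eq : ε = pb (inc L) (b₀ + γ) := by rw [pb_add, ← e, add_sub_cancel]
  have db := d₀.add_prn hγ
  have nn : 0 ≤ b₀ + γ := (pb_inc_nonneg hK).1 <| eq ▸ Pr.hart res' hK sΛ bΛ u.1 fun W w =>
    (u.2 W w).symm ▸ δ_nn P W
  obtain ⟨Q, l⟩ := (ok_inc hK hL P).resolve_left fun t => nh fun f hf => t ⟨f, hf⟩
  have pos : 0 < (b₀ + γ) Q := by
    have := u.2 P o
    rw [eq, l.pb, δ_self] at this
    exact (nn Q).lt_of_ne fun k => by
      rw [← (show (0 : ℝ) = _ from k), mul_zero] at this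
      exact zero_ne_one this
  have z : ∀ Q', On 2 B₀ Q' → Q' ≠ Q → (b₀ + γ) Q' = 0 := fun Q' q k => by
    obtain ⟨P', l', o'⟩ := exists_on_over hL hK (fun _ => rfl) sΛ bΛ s b d q
    have := u.2 P' o'
    rw [eq, l'.pb, δ_ne fun e : P' = P => k (l'.uniq (e ▸ l))] at this
    exact (mul_eq_zero.1 this).resolve_left (by exact_mod_cast l'.e_pos.ne')
  refine ⟨_, Q, db, eq, nn, l, by_contra fun k => pos.ne' ?_, pos, z⟩
  rw [Pr.hart_eq res' hL s b db (.zero s) fun Q' q => z Q' q fun e => k (e ▸ q)]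
  rfl

end Vale.Agent.P287D.C3
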