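import Vale.Agent.P287D.Sk

/-!
# P287D: links of conic bundles over a threefold (statements)
-/

set_option linter.unusedVariables false

noncomputable section

namespace Vale.Agent.P287D.C3

variable {K : Type} [Field K] [Algebra ℂ K]

/-- the degree of `β` on the fibres of `P` over the base, times the volume of the image -/
def dg {L : IntermediateField ℂ K} (R₀ : BD L) (P : Pl K) (β : BD K) : ℝ :=
  I3 (res P β) (res P (pb (inc L) R₀)) (res P (pb (inc L) R₀))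

/-- **VQ**: a vertical prime divisor of a conic bundle is the pull back of a prime divisor -/
def VQ : Prop := ∀ (K : Type) [Field K] [Algebra ℂ K], FF K 4 → FT K 3 →
  ∀ (Λ B Γ ε : BD K) (L : IntermediateField ℂ K) (B₀ : BD L) (P : Pl K), MFS 3 Λ B Γ → FF L 3 →
  Cld L → Smp B₀ → Big B₀ → AmpOn B (pb (inc L) B₀) → ¬ Hor L P → On 3 Λ P → Hull 3 Λ P.δ ε →
  ∃ (b : BD L) (Q : Pl L), Dsc B₀ b ∧ ε = pb (inc L) b ∧ 0 ≤ b ∧ Lies (inc L) P Q ∧ On 2 B₀ Q ∧
    0 < b Q ∧ ∀ Q', On 2 B₀ Q' → Q' ≠ Q → b Q' = 0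

/-- **SIDE**: the degree of the anticanonical class on the fibres of an extracted divisor -/
def SIDE : Prop := ∀ (K : Type) [Field K] [Algebra ℂ K], FF K 4 →
  ∀ (Y ΓY Λ : BD K) (L : IntermediateField ℂ K) (R₀ : BD L) (P : Pl K) (Q : Pl L),
  Xtr 3 Y ΓY Λ P → FF L 3 → Smp R₀ → Big R₀ → Dsc Λ (pb (inc L) R₀) → Lies (inc L) P Q →
  On 2 R₀ Q → ∃ n : ℕ, 0 < n ∧ dg R₀ P (-ΓY) = n * vol 2 (res Q R₀) ∧
    (n = 1 → ∃ M : IntermediateField ℂ P.κ, Ruled M ∧ Nonempty (Q.κ ≃ₐ[ℂ] M))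

/-- **ONE**: a surface of type S is not blown up to a divisor of the other side -/
def ONE : Prop := ForL fun S _ _ _ R _ Λ _ _ E => dim R = 3 → ∀ i j P, i ≠ j → E i = some P →
  E j = none → cd (Λ i) P = 2 → ¬ SDiv S P.κ

/-- **TWO**: elementary transformations -/
def TWO : Prop := ForL fun S _ _ _ R _ Λ _ _ E => dim R = 3 → ∀ i j P F, i ≠ j → E i = some P →
  E j = some F → SDiv S P.κ → SDiv S F.κ

theorem cb3_of (h : ONE) (h' : TWO) : CB3 := by
  refine (ForD.and h h').mono ?_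
  rintro S K _ _ hK hF ⟨h, h'⟩ R A Λ B Γ E l r i j P n e c s
  cases u : E j with
  | none => exact absurd s (h R A Λ B Γ E l r i j P n e u c)
  | some F => exact ⟨F, rfl, h' R A Λ B Γ E l r i j P F n e u s⟩

end Vale.Agent.P287D.C3
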