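import Vale.Agent.P287D.C3.One
import Vale.Agent.P287D.C3.Vq
import Vale.Agent.P287D.D2.Two
import Vale.Agent.P287D.Api.All

/-!
# P287D: links of conic bundles over a threefold
-/

namespace Vale.Agent.P287D.C3

/-- **CB3** -/
theorem cb3 : CB3 := cb3_of (one_of Api.trm) (D2.two_of Api.trm vq)

end Vale.Agent.P287D.C3
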