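import Vale.Agent.P287D.C3.St
import Vale.Agent.P287D.Sm.Nh
import Vale.Agent.P287D.Dp.Rk
import Vale.Agent.P287D.Lc.St
import Vale.Agent.P287D.Lk.Dim
import Vale.Agent.P287D.Api.Adj

/-!
# P287D: links of conic bundles, a contraction on the base
-/

set_option linter.unusedVariables false

open Set

noncomputable section

namespace Vale.Agent.P287D.C3

open Sc

variable {n : ℕ} {F : Type} [Field F] [Algebra ℂ F] {X η N W γ Z : BD F}

/-- `dim η` copies of `η`, then copies of `N` -/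
def tl (n : ℕ) (η N : BD F) : Fin n → BD F := fun i => if i.1 < dim η then η else N

theorem tl_ind {p : BD F → Prop} (a : p η) (b : p N) (i : Fin n) : p (tl n η N i) := by
  unfold tl
  split_ifs
  exacts [a, b]

theorem tl_zero (hF : FF F (n + 1)) (s : Smp η) (k : dim η ≤ n) (c : N ∈ Car F) (z : Z ∈ Car F)
    (h : ∃ a ∈ Car (fld η), Z - pb (inc _) a ∈ Prn F) :
    I (n + 1) F (Fin.cons Z (tl n η N)) = 0 := by
  refine I_eq_zero_of_fld hF (ff_fld hF η) (In.cons_mem z (tl_ind s.car c))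
    (Finset.univ.filter fun i => i.1 < dim η + 1) ?_
    (Fin.forall_fin_succ.2 ⟨fun _ => h, fun i m => ?_⟩)
  · rw [Fin.card_filter_val_lt]
    omega
  · have : i.1 < dim η := by simpa using m
    rw [Fin.cons_succ, tl, if_pos this]
    exact (Dsc.refl s).down hF le_rfl

theorem tl_pos (hF : FF F (n + 1)) (s : Smp η) (a : Nef N) (b : Big N) :
    0 < I (n + 1) F (Fin.cons N (tl n η N)) := by
  obtain ⟨y, hy, m⟩ := exists_ind hF (ff_fld hF η)
  refine I_pos_of_ind hF (In.cons_mem a (tl_ind s.nef a)) (In.cons_mem b.eff (tl_ind s.eff b.eff))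
    (hy.comp (finRotate _).symm (Equiv.injective _))
    (Fin.forall_fin_succ.2 ⟨b.fld_eq ▸ trivial, fun i => ?_⟩)
  rw [Fin.cons_succ, tl]
  split_ifs with e
  · refine m _ ?_
    rw [show (finRotate (n + 1)).symm i.succ = i.castSucc from
      (Equiv.symm_apply_eq _).2 (by simp)]
    exact e
  · exact b.fld_eq ▸ trivial

/-- a fibration on whose fibres the canonical class is negative factors every map to a variety
with a canonical form -/
theorem core (hF : FF F (n + 1)) (s : Smp η) (k : dim η ≤ n) (d : Dsc X η) (dN : Dsc X N)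
    (a : Nef N) (b : Big N) (c : W ∈ Car F) (hB : Bdy n X W) (dγ : Dsc η γ)
    (e : W + N - γ ∈ Prn F) {L : IntermediateField ℂ F} (hL : FF L n) (hp : pg L n ≠ 0)
    (cl : Cld L) : fld η ≤ L := fun f hf => by
  by_contra u
  have r : L.val.fieldRange = L := L.fieldRange_val
  obtain ⟨w, w0, hw⟩ := Sm.form hF hL hp L.val (x := f) (by rw [r]; exact fun z => u (cl f z))
  have t : ∀ i, tl n η N i ∈ Car F := tl_ind s.car a.car
  have nf : ∀ i, Nef (tl n η N i) := tl_ind s.nef a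
  have ib := fun Z (z : Z ∈ Car F) => Ba.isB_car hF z
  have ic := (Api.mod.isb n F hF).2.1
  have c2 := Submodule.smul_mem _ (2 : ℝ) (pld_car f)
  have p := In.hy.cons_nn hF (In.IsB.add ic (ib _ c2))
    (Rep.eff ⟨hw.resolve_left w0, by simpa using dv_mem_Prn w⟩).psef nf
  rw [In.hy.cons_add hF ic (ib _ c2) t, In.cons_smul, tl_zero hF s k a.car (pld_car f)
    ⟨pld ⟨f, hf⟩, pld_car _, by rw [(hF.ok_sub _).pb_pld]; simp⟩, mul_zero, add_zero] at p
  have q : 0 ≤ I (n + 1) F (Fin.cons (W - cn F (n + 1)) (tl n η N)) := by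
    rw [In.I_cons]
    refine finsum_nonneg fun P => ?_
    by_cases o : On n X P
    · exact mul_nonneg (sub_nonneg.2 (sub_nonpos.1 (hB P o))) (In.hy.cf_nef hF P nf)
    · rw [In.hy.exc hF o d.smp (tl_ind d dN), mul_zero]
  have v := In.hy.cons_congr hF (ib _ dγ.car) e t
  rw [In.hy.cons_add hF (ib _ c) (ib _ a.car) t,
    tl_zero hF s k a.car dγ.car (dγ.down hF le_rfl)] at v
  rw [In.hy.cons_sub hF (ib _ c) ic t] at q
  linarith [tl_pos hF s a b]

variable {K : Type} [Field K] [Algebra ℂ K] {Λ B Γ R ε : BD K} {P : Pl K}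

/-- a prime divisor with a small image comes from the base -/
theorem ver (hK : FF K (n + 1)) (hT : FT K n) (M : MFS n Λ B Γ) (s : Smp R) (d : Dsc B R)
    (r : dim R = n) (h : Hull n Λ P.δ ε) (o : ¬ On n R P) : Dsc B ε := by
  obtain ⟨x, k⟩ := Dp.pic_split (Api.ftn.pic n K hK hT Λ M.term.smp) M.smp M.des M.rk
    M.term.hull.1 (Dp.mfs_not M) h.1
  obtain ⟨c, am⟩ := M.neg
  have e : tl n R (c • B - Γ) = fun _ => R := funext fun i => if_pos (r ▸ i.2)
  have z : ∀ Z, Dsc B Z → I (n + 1) K (Fin.cons Z fun _ => R) = 0 := fun Z u =>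
    I_eq_zero_of_dsc hK (In.cons_mem u.car fun _ => s.car) Finset.univ
      (by simpa using Lk.dim_lt fld' hK M.smp M.nbig) fun i _ => In.cons_mem u (fun _ => d) i
  have p := tl_pos hK s am.smp.nef (am.big_iff.1 M.term.big)
  have ib := fun Z (z : Z ∈ Car K) => Ba.isB_car hK z
  have t : ∀ _ : Fin n, R ∈ Car K := fun _ => s.car
  have cB := (Dsc.refl M.smp).smul c
  have cΓ := M.term.hull.1.car
  rw [e, In.hy.cons_sub hK (ib _ cB.car) (ib _ cΓ) t, z _ cB] at p
  have q := z _ k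
  rw [In.hy.cons_sub hK (ib _ h.1.car) (ib _ (Submodule.smul_mem _ _ cΓ)) t, In.cons_smul,
    ← In.hy.cf_hull hK M.term.smp (fun _ => M.des.trans d) h,
    In.hy.exc hK o s fun _ => .refl s] at q
  rw [zero_sub, neg_eq_zero, mul_eq_zero] at q
  obtain rfl : x = 0 := q.resolve_right fun q => by simp [q] at p
  simpa using k

/-- **ONE** -/
theorem one_of (hT : Mm.TRM) : ONE := by
  refine ⟨0, fun d _ S hS K _ _ hK hF R A Λ B Γ E h r i j P ne e e' c2 ⟨L, sL, hr⟩ => ?_⟩
  obtain ⟨H, f, s⟩ := hS.isS L sL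
  have hp := s.pg_ne Api.mod
  obtain ⟨-, Y, ΓY, x⟩ := h.ext i P e
  obtain ⟨c', β, hu, am'⟩ := x.anti
  have y : Xc (Λ i) (Γ i) Y ΓY β P := ⟨hK, (h.mfs i).term, x, hu, c2⟩
  obtain rfl := xl_of (xq_of fld' hT (xa_of hT)) K _ _ Y ΓY β P y L s.ff hp hr
  have M := h.mfs j
  have hκ := Gm.ff_κ P hK
  have on : ∀ Q, On 3 Y Q ↔ On 3 (Λ j) Q := fun Q => by
    rw [Sm.on_link h e x, h.zero j, e']
    simp
  have o := (on P).1 y.onE
  obtain ⟨ε, -, hε⟩ := M.qf P o
  have dε : Dsc (B j) ε := ver hK hF M h.smp (h.down j) r hε fun z => by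
    have a := (on_iff_cd hK h.smp P).1 z
    have b := (Lk.dim_mono fld' hκ (res_smp hK P h.smp)
      (res_dsc hK P ((h.mfs i).des.trans (h.down i)))).1
    change cd R P ≤ cd (Λ i) P at b
    omega
  have nb : cd (B j) P ≤ 2 := by
    have a := cd_le hK (B j) P
    have b := mt (on_iff_cd hK M.smp P).2 fun z => z.ne' ((In.hy.cf_hull hK M.term.smp
      (fun _ => M.des) hε).trans (I_eq_zero_of_dsc hK (In.cons_mem dε.car fun _ => M.smp.car)
        Finset.univ (by simpa using Lk.dim_lt fld' hK M.smp M.nbig)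
        fun i _ => In.cons_mem dε (fun _ => .refl M.smp) i))
    omega
  obtain ⟨c, am⟩ := M.neg
  have hW := M.term.hull.add hε
  have w : ∀ Q, On 3 (Λ j) Q → dsc 4 (Γ j + ε) Q = -P.δ Q := fun Q a => by
    rw [dsc, Pi.sub_apply, hW.2 Q a, Pi.add_apply]; ring
  obtain ⟨u1, u2, -⟩ := a1 3 K hK P _ hW.1.car
  have le := core hκ (res_smp hK P M.smp) nb (res_dsc hK P M.des) (res_dsc hK P am.1)
    (res_smp hK P am.smp).nef (big_res hK am o) u1 (a3 2 K hK _ P M.term.smp M.term.big o _ hW.1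
      (fun Q a => w Q a ▸ neg_nonpos.2 (P.δ_nonneg Q)) (by rw [w P o, P.δ_self]))
    (res_dsc hK P (((Dsc.refl M.smp).smul c).add dε)) (by
      rw [show c • B j + ε = Γ j + ε + (c • B j - Γ j) by abel, res_add hK P hW.1.car am.car,
        add_sub_add_right_eq_sub]
      exact u2) s.ff hp (cld_fld _)
  obtain ⟨K', _, _, ψ, g⟩ := y.gf
  obtain ⟨a, -, ha⟩ := (res_dsc hK P dε).down hκ le
  have k := g.ok.prn ha
  rw [pb_sub, Gx.pb_base g.toExt g.ok, sub_zero, ← g.pb_eq.2 fun w hw => Sm.smn_link hT h e y hp j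
    hu.1 hε.1 (fun Q q => (hu.2 Q q).trans (hε.2 Q ((on Q).1 q)).symm) hw] at k
  refine not_big_prn g.ff ?_ (Gx.big_pb g.ok g.gen (big_res hK am' y.onE))
  rw [res_sub hK P (Submodule.smul_mem _ _ x.smp.car) hu.1.car, res_smul hK P _ x.smp.car, pb_sub,
    pb_smul]
  exact sub_mem (Submodule.smul_mem _ _ (pb_fld y.smpH g)) k

end Vale.Agent.P287D.C3
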