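import Vale.Agent.P287D.C3.Vq
import Vale.Agent.P287D.Sm.Nh
import Vale.Agent.P287D.Oe.Red
import Vale.Agent.P287D.Sc.Vd

/-!
# P287D: a surface of type S is not blown up to a divisor of the other conic bundle
-/

set_option linter.unusedVariables false

noncomputable section

namespace Vale.Agent.P287D.C3

open Sc

/-- a fibration on which the adjoint class is negative factors through a field with a form -/
theorem fld_le_pg {n : ℕ} {W : Type} [Field W] [Algebra ℂ W] {L : IntermediateField ℂ W}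
    {X Θ η N : BD W} (hW : FF W (n + 1)) (hL : FF L n) (cl : Cld L) (hp : pg L n ≠ 0) (bX : Big X)
    (d : Dsc X Θ) (e : Bdy n X Θ) (dη : Dsc X η) (nb : ¬ Big η) (dN : Dsc η N)
    (b : Big (N - Θ)) : fld η ≤ L := by
  obtain ⟨w, w1, a⟩ := dN.smp.exists_ampOn
  have k : ∀ f ∈ w, f ∈ L := fun f hf => by_contra fun c => by
    obtain ⟨v, v0, hv⟩ := Sm.form hW hL hp L.val (x := f) fun z =>
      c (cl f (by rwa [IntermediateField.fieldRange_val] at z))
    have z : 0 ≤ Θ + (2 : ℝ) • mx w + dv v := Pr.hart res' hW d.smp bX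
      ((d.add ((dη.trans a.1).smul 2)).add (.dv d.smp v)) fun Q o => by
        have a₁ := hv.resolve_left v0 Q
        have a₂ := e Q o
        have a₃ := pld_le (mx_nonneg w1) (sec_of_mem hf) Q
        simp only [dsc, Pi.add_apply, Pi.sub_apply, Pi.zero_apply, Pi.smul_apply,
          smul_eq_mul] at a₁ a₂ ⊢
        linarith
    refine nb ((dN.add (a.1.smul 2)).big ((b.add_eff (.of_nonneg z)).congr ?_))
    rw [show N + (2 : ℝ) • mx w - (N - Θ + (Θ + (2 : ℝ) • mx w + dv v)) = -dv v by abel]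
    exact neg_mem (dv_mem_Prn v)
  rw [← a.fld_eq]
  exact fld_mx_le hW cl (rts_le_iff.2 fun f hf g hg => div_mem (k f hf) (k g hg))

/-- **ONE** -/
theorem one' (hT : Mm.TRM) : ONE := by
  refine ⟨0, fun d _ S hS K _ _ hK hF R A Λ B Γ E h r i j P n e e' c2 ⟨L, sL, rL⟩ => ?_⟩
  obtain ⟨aB, Y, ΓY, x⟩ := h.ext i P e
  obtain ⟨H₀, f, s⟩ := hS.isS L sL
  have p := s.pg_ne Api.mod
  obtain ⟨-, β, hu, -⟩ := x.anti
  have y : Xc (Λ i) (Γ i) Y ΓY β P := ⟨hK, (h.mfs i).term, x, hu, c2⟩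
  obtain rfl := xl_of (xq_of fld' hT (xa_of hT)) K _ _ Y ΓY β P y L s.ff p rL
  have m := h.mfs j
  have on : ∀ Q, On 3 Y Q ↔ On 3 (Λ j) Q := fun Q => by
    rw [Sm.on_link h e x, h.zero j, e']
    simp
  have o := (on P).1 ((x.on P).2 (.inr rfl))
  obtain ⟨ε, -, u⟩ := m.qf P o
  obtain ⟨B₀, s₀, b₀, p₀⟩ := fld_down hK m.smp
  obtain ⟨R₀, s₁, b₁, p₁⟩ := fld_down hK h.smp
  have d3 : dim (B j) = 3 := by
    have a₁ := (h.down j).dim_le hK
    have a₂ := dim_le hK (B j)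
    have a₃ := mt (big_iff_dim hK m.smp.eff).2 m.nbig
    omega
  have a : AmpOn (B j) (pb (inc _) B₀) := m.smp.ampOn_congr (neg_sub (B j) _ ▸ neg_mem p₀)
  have nh : ¬ Hor (fld (B j)) P := fun c => x.off (Sg.on_hor hK (r ▸ ff_fld hK R) s₁ b₁ x.smp
    (((h.mfs i).des.trans (h.down i)).congr (neg_sub R _ ▸ neg_mem p₁))
    fun g hg => c g ((h.down j).fld_le hg))
  obtain ⟨b, -, db, eb, -⟩ := vq K hK hF _ _ _ ε _ B₀ P m (d3 ▸ ff_fld hK _) (cld_fld _) s₀ b₀ a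
    nh o u
  have dε : Dsc (B j) ε := a.dsc_iff.2 (eb ▸ (hK.ok_sub _).dsc db)
  obtain ⟨G, rG, zG⟩ := Oe.vert m.smp.eff nh
  obtain ⟨c, am⟩ := m.neg
  have dΘ := m.term.hull.1.add u.1
  have dN := ((Dsc.refl m.smp).smul c).add dε
  have le : fld (res P (B j)) ≤ fld (res P (Λ i)) :=
    fld_le_pg (Gm.ff_κ P hK) s.ff (cld_fld _) p ((on_iff_big hK P m.term.smp.nef).1 o)
      (Sg.dsc_adj hK dΘ) (Oe.adj_bdy a3 hK m.term o u) (res_dsc hK P m.des)
      (mt (on_iff_big hK P m.smp.nef).2 (Oe.not_on hK m.smp.nef m.nbig rG zG)) (res_dsc hK P dN)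
      ((big_res hK am o).congr (by
        rw [show c • B j - Γ j = c • B j + ε - (Γ j + ε) by abel, res_sub hK P dN.car dΘ.car,
          sub_sub_sub_cancel_left]
        exact neg_sub (adj 3 P _) _ ▸ neg_mem (a1 3 K hK P _ dΘ.car).2.1))
  obtain ⟨K', _, _, ψ, g⟩ := y.gf
  have k := (y.fib g fld' hT (xa_of hT)).2.1
  have q : pb ψ (res P β) = pb ψ (res P ε) := funext fun Q => by
    obtain ⟨w, l⟩ := g.toGF.below g.ff Q
    rw [g.toGF.pb_eq l, g.toGF.pb_eq l]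
    exact Sm.smn_link hT h e y p j hu.1 u.1 (fun Z z => (hu.2 Z z).trans (u.2 Z ((on Z).1 z)).symm)
      (g.toExt.hor l)
  rw [q, Cv.I1_prn g.ff (Dp.pb_prn g.ff g.toExt (res_smp hK P m.smp) le (res_dsc hK P dε))] at k
  norm_num at k

end Vale.Agent.P287D.C3
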